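import Vale.Agent.P207.SPH.H522.Lin

/-!
# P207, project SPH, row R6: the growth `N` of `k`-volumes in the `S`-metric
-/

open Matrix MeasureTheory Set Filter Topology

noncomputable section

namespace Vale.Agent.P207.SPH.H522

lemma md_mul {a b c : ℕ} {M : ℝ → Matrix (Fin a) (Fin b) ℝ} {L : ℝ → Matrix (Fin b) (Fin c) ℝ}
    {M' : Matrix (Fin a) (Fin b) ℝ} {L' : Matrix (Fin b) (Fin c) ℝ} {t : ℝ}
    (hM : MD M M' t) (hL : MD L L' t) : MD (fun s => M s * L s) (M' * L t + M t * L') t := by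
  intro i j
  simp only [mul_apply, Matrix.add_apply]
  rw [← Finset.sum_add_distrib]
  exact HasDerivAt.fun_sum fun l _ => (hM i l).mul (hL l j)

lemma md_transpose {a b : ℕ} {M : ℝ → Matrix (Fin a) (Fin b) ℝ} {M' : Matrix (Fin a) (Fin b) ℝ}
    {t : ℝ} (hM : MD M M' t) : MD (fun s => (M s)ᵀ) M'ᵀ t := fun i j => hM j i

lemma md_add {a b : ℕ} {M L : ℝ → Matrix (Fin a) (Fin b) ℝ} {M' L' : Matrix (Fin a) (Fin b) ℝ}
    {t : ℝ} (hM : MD M M' t) (hL : MD L L' t) : MD (fun s => M s + L s) (M' + L') t :=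
  fun i j => (hM i j).add (hL i j)

/-- a matrix curve with zero derivative is constant -/
lemma md_const {a b : ℕ} {M : ℝ → Matrix (Fin a) (Fin b) ℝ} (h : ∀ t, MD M 0 t) (s t : ℝ) :
    M s = M t := by
  ext i j
  exact is_const_of_deriv_eq_zero (f := fun s => M s i j)
    (fun x => (h x i j).differentiableAt) (fun x => (h x i j).deriv) s t

variable {m : ℕ} {X : Type} [TopologicalSpace X] (D : Sys m X)

lemma S_symm (f : X) : (D.S f)ᵀ = D.S f := by
  rw [Sys.S, transpose_add, D.sU, D.sV]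

lemma S_lo (f : X) (x : Fin m → ℝ) : (2 * D.a) * (x ⬝ᵥ x) ≤ x ⬝ᵥ (D.S f *ᵥ x) := by
  rw [Sys.S, add_mulVec, dotProduct_add]
  have h1 := D.loU f x
  have h2 := D.loV f x
  linarith

lemma S_pos (f : X) : (D.S f).PosDef :=
  posDef_of_lo (S_symm D f) (by have := D.a_pos; positivity) (S_lo D f)

lemma S_cont : Continuous D.S := D.cU.add D.cV

lemma Φ_cont (T : ℝ) : Continuous (D.Φ T) := D.cont.comp (continuous_const.prodMk continuous_id)

lemma orb_cont (f : X) : Continuous fun s => D.Φ s f :=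
  D.cont.comp (continuous_id.prodMk continuous_const)

/-- derivative of `S` along the flow -/
lemma S_der (f : X) (t : ℝ) : MD (fun s => D.S (D.Φ s f))
    (D.V (D.Φ t f) * D.V (D.Φ t f) - D.U (D.Φ t f) * D.U (D.Φ t f)) t := by
  have h := md_add (D.dU f t) (D.dV f t)
  have e : D.K (D.Φ t f) - D.U (D.Φ t f) * D.U (D.Φ t f) +
      (D.V (D.Φ t f) * D.V (D.Φ t f) - D.K (D.Φ t f)) =
      D.V (D.Φ t f) * D.V (D.Φ t f) - D.U (D.Φ t f) * D.U (D.Φ t f) := by abel
  rw [e] at h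
  exact h

variable {D} {Y Z : ℝ → X → Mt m}

lemma Y_unit {B : X → Mt m} (hY : Fund D B Y) (t : ℝ) (f : X) : IsUnit (Y t f) := by
  rw [Matrix.isUnit_iff_isUnit_det, hY.det]
  exact (Real.exp_pos _).ne'.isUnit

lemma Y_inj {B : X → Mt m} (hY : Fund D B Y) (t : ℝ) (f : X) :
    Function.Injective (Y t f).mulVec :=
  Matrix.mulVec_injective_of_isUnit (Y_unit hY t f)

lemma G_pos {B : X → Mt m} (hY : Fund D B Y) (t : ℝ) (f : X) :
    ((Y t f)ᵀ * D.S (D.Φ t f) * Y t f).PosDef :=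
  posDef_conj (S_pos D _) (Y_inj hY t f)

lemma N_kv (k : ℕ) (T : ℝ) (f : X) :
    D.N Y k T f = kv k (D.S f) ((Y T f)ᵀ * D.S (D.Φ T f) * Y T f) := rfl

lemma Y_cont {B : X → Mt m} (hY : Fund D B Y) (T : ℝ) : Continuous (Y T) :=
  hY.cont.comp (continuous_const.prodMk continuous_id)

/-- `Zᵀ S Y` is constant along the orbits -/
lemma wronski (hY : Fund D D.U Y) (hZ : Fund D (fun f => -D.V f) Z) (f : X) (t : ℝ) :
    (Z t f)ᵀ * D.S (D.Φ t f) * Y t f = D.S f := by
  have h : ∀ t, MD (fun s => (Z s f)ᵀ * D.S (D.Φ s f) * Y s f) 0 t := by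
    intro t
    have h1 := md_mul (md_mul (md_transpose (hZ.der f t)) (S_der D f t)) (hY.der f t)
    have e : ((-D.V (D.Φ t f) * Z t f)ᵀ * D.S (D.Φ t f) +
        (Z t f)ᵀ * (D.V (D.Φ t f) * D.V (D.Φ t f) - D.U (D.Φ t f) * D.U (D.Φ t f))) * Y t f +
        (Z t f)ᵀ * D.S (D.Φ t f) * (D.U (D.Φ t f) * Y t f) = 0 := by
      rw [transpose_mul, transpose_neg, D.sV, Sys.S]
      noncomm_ring
    rw [← e]
    exact h1
  have h2 := md_const h t 0
  rw [h2, hY.zero, hZ.zero, D.zero, transpose_one, Matrix.one_mul, Matrix.mul_one]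

/-- the product formula for the determinants -/
lemma N_full (hY : Fund D D.U Y) (hZ : Fund D (fun f => -D.V f) Z) (T : ℝ) (f : X) :
    D.N Y m T f = Real.exp (∫ s in (0 : ℝ)..T, (D.S (D.Φ s f)).trace) := by
  have h1 := kv_full (G := (Y T f)ᵀ * D.S (D.Φ T f) * Y T f) (S_pos D f)
  rw [← N_kv] at h1
  have h2 := congrArg det (wronski hY hZ f T)
  rw [det_mul, det_mul, det_transpose] at h1 h2
  have hcU : Continuous fun s => (D.U (D.Φ s f)).trace := (D.cU.comp (orb_cont D f)).matrix_trace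
  have hcV : Continuous fun s => (D.V (D.Φ s f)).trace := (D.cV.comp (orb_cont D f)).matrix_trace
  have h3 : ∫ s in (0 : ℝ)..T, (D.S (D.Φ s f)).trace =
      (∫ s in (0 : ℝ)..T, (D.U (D.Φ s f)).trace) + ∫ s in (0 : ℝ)..T, (D.V (D.Φ s f)).trace := by
    rw [← intervalIntegral.integral_add (hcU.intervalIntegrable _ _) (hcV.intervalIntegrable _ _)]
    refine intervalIntegral.integral_congr fun s _ => ?_
    rw [Sys.S, trace_add]
  have h4 : (Z T f).det = Real.exp (-∫ s in (0 : ℝ)..T, (D.V (D.Φ s f)).trace) := by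
    rw [hZ.det, ← intervalIntegral.integral_neg]
    congr 1
    refine intervalIntegral.integral_congr fun s _ => ?_
    simp only [trace_neg]
  have h5 := hY.det f T
  have hS := (S_pos D f).det_pos
  set y := (Y T f).det
  set z := (Z T f).det
  have hz : 0 < z := by rw [h4]; exact Real.exp_pos _
  -- N * det S = y * det S' * y,  z * det S' * y = det S
  have h6 : D.N Y m T f * z = y := by
    have : D.N Y m T f * (z * (D.S (D.Φ T f)).det * y) * z =
        y * (z * (D.S (D.Φ T f)).det * y) := by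
      rw [h2]
      have h7 : D.N Y m T f * (D.S f).det * z = y * (z * (D.S (D.Φ T f)).det * y) := by
        rw [h1]; ring
      rw [h7, h2]
    rw [h2] at this
    have h8 : (D.N Y m T f * z) * (D.S f).det = y * (D.S f).det := by
      linear_combination this
    exact mul_right_cancel₀ hS.ne' h8
  have h7 : D.N Y m T f = y / z := by rw [← h6, mul_div_assoc, div_self hz.ne', mul_one]
  rw [h7, h5, h4, h3, ← Real.exp_sub]
  congr 1
  ring

/-- R6 -/
theorem n (hF : FundStmt) : NStmt := by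
  intro m X _ _ D Y hY k hk
  refine ⟨?_, ?_, ?_, ?_, ?_⟩
  · intro T f
    exact kv_max (S_pos D f) hk
  · intro T f
    exact kv_pos (S_pos D f) (G_pos hY T f) hk
  · intro T
    have hY' := Y_cont hY T
    exact continuous_kv (S_cont D)
      ((hY'.matrix_transpose.matrix_mul ((S_cont D).comp (Φ_cont D T))).matrix_mul hY')
      (S_pos D)
  · intro s t f
    have h1 : (Y (s + t) f)ᵀ * D.S (D.Φ (s + t) f) * Y (s + t) f =
        (Y t f)ᵀ * ((Y s (D.Φ t f))ᵀ * D.S (D.Φ s (D.Φ t f)) * Y s (D.Φ t f)) * Y t f := by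
      rw [hY.coc, ← D.add, transpose_mul]; simp only [Matrix.mul_assoc]
    rw [N_kv, N_kv, N_kv, h1]
    exact kv_mul (S_pos D f) (S_pos D _) (G_pos hY s _) hk
  · obtain ⟨Z, hZ⟩ := hF m X D (fun f => -D.V f) D.cV.neg
    exact N_full hY hZ

end Vale.Agent.P207.SPH.H522
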