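import Vale.Agent.P207.SPH.Defs

/-!
# P207, project SPH: linear algebra of `k`-volumes in the metric of a positive definite matrix
-/

open Matrix MeasureTheory Set Filter Topology

noncomputable section

namespace Vale.Agent.P207.SPH.H522

variable {m k : ℕ}

section
open scoped MatrixOrder

lemma exists_BtB {n : ℕ} {A : Mt n} (hA : A.PosDef) : ∃ B : Mt n, A = Bᵀ * B := by
  obtain ⟨B, hB⟩ := CStarAlgebra.nonneg_iff_eq_star_mul_self.mp hA.posSemidef.nonneg
  exact ⟨B, by rw [hB, star_eq_conjTranspose, conjTranspose_eq_transpose_of_trivial]⟩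

end

/-- for a positive definite matrix there is an invertible `Q` with `Qᵀ A Q = 1` -/
lemma exists_Q {n : ℕ} {A : Mt n} (hA : A.PosDef) : ∃ Q : Mt n, IsUnit Q ∧ Qᵀ * A * Q = 1 := by
  obtain ⟨B, hB⟩ := exists_BtB hA
  have hd : A.det ≠ 0 := hA.det_pos.ne'
  have hBd : IsUnit B.det := by
    rw [hB, det_mul, det_transpose] at hd
    exact isUnit_iff_ne_zero.mpr fun h => hd (by rw [h, zero_mul])
  refine ⟨B⁻¹, ?_, ?_⟩
  · rw [Matrix.isUnit_nonsing_inv_iff, Matrix.isUnit_iff_isUnit_det]; exact hBd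
  · rw [hB, transpose_nonsing_inv]
    have h1 : (Bᵀ)⁻¹ * Bᵀ = 1 := nonsing_inv_mul _ (by rwa [det_transpose])
    have h2 : B * B⁻¹ = 1 := mul_nonsing_inv _ hBd
    calc (Bᵀ)⁻¹ * (Bᵀ * B) * B⁻¹ = ((Bᵀ)⁻¹ * Bᵀ) * (B * B⁻¹) := by simp only [Matrix.mul_assoc]
      _ = 1 := by rw [h1, h2, one_mul]

/-- positive definiteness from a lower bound -/
lemma posDef_of_lo {n : ℕ} {A : Mt n} (hs : Aᵀ = A) {a : ℝ} (ha : 0 < a)
    (h : ∀ x, a * (x ⬝ᵥ x) ≤ x ⬝ᵥ (A *ᵥ x)) : A.PosDef := by
  refine PosDef.of_dotProduct_mulVec_pos ?_ ?_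
  · rw [IsHermitian, conjTranspose_eq_transpose_of_trivial]; exact hs
  · intro x hx
    rw [star_trivial]
    have h0 : 0 < x ⬝ᵥ x := by
      have := dotProduct_star_self_pos_iff.mpr hx
      rwa [star_trivial] at this
    exact lt_of_lt_of_le (by positivity) (h x)

/-- `Wᵀ A W` is positive definite when `W` is injective -/
lemma posDef_conj {A : Mt m} (hA : A.PosDef) {W : Matrix (Fin m) (Fin k) ℝ}
    (hW : Function.Injective W.mulVec) : (Wᵀ * A * W).PosDef := by
  have := hA.conjTranspose_mul_mul_same hW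
  rwa [conjTranspose_eq_transpose_of_trivial] at this

lemma posSemidef_conj {A : Mt m} (hA : A.PosDef) (W : Matrix (Fin m) (Fin k) ℝ) :
    (Wᵀ * A * W).PosSemidef := by
  have := hA.posSemidef.conjTranspose_mul_mul_same W
  rwa [conjTranspose_eq_transpose_of_trivial] at this

/-- injectivity from the metric condition -/
lemma inj_of_one {A : Mt m} {W : Matrix (Fin m) (Fin k) ℝ} (h : Wᵀ * A * W = 1) :
    Function.Injective W.mulVec := by
  intro x y hxy
  have : (Wᵀ * A * W) *ᵥ x = (Wᵀ * A * W) *ᵥ y := by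
    rw [← mulVec_mulVec x, hxy, mulVec_mulVec]
  rwa [h, one_mulVec, one_mulVec] at this

lemma inj_of_one' {W : Matrix (Fin m) (Fin k) ℝ} (h : Wᵀ * W = 1) :
    Function.Injective W.mulVec := by
  apply inj_of_one (A := 1)
  rwa [Matrix.mul_one]

/-- injectivity from a nonzero determinant -/
lemma inj_of_det {A : Mt m} {W : Matrix (Fin m) (Fin k) ℝ} (h : (Wᵀ * A * W).det ≠ 0) :
    Function.Injective W.mulVec := by
  intro x y hxy
  have h1 : (Wᵀ * A * W) *ᵥ x = (Wᵀ * A * W) *ᵥ y := by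
    rw [← mulVec_mulVec x, hxy, mulVec_mulVec]
  exact Matrix.mulVec_injective_of_isUnit ((Matrix.isUnit_iff_isUnit_det _).mpr
    (isUnit_iff_ne_zero.mpr h)) h1

/-- the `k`-volume growth from the metric `P` to the metric `G` (squares) -/
def kv (k : ℕ) (P G : Mt m) : ℝ :=
  sSup {x | ∃ W : Matrix (Fin m) (Fin k) ℝ, Wᵀ * P * W = 1 ∧ x = (Wᵀ * G * W).det}

/-- the Stiefel manifold -/
def St (m k : ℕ) : Type := {V : Matrix (Fin m) (Fin k) ℝ // Vᵀ * V = 1}

instance : TopologicalSpace (St m k) := instTopologicalSpaceSubtype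

/-- first `k` coordinate vectors -/
def E (m k : ℕ) : Matrix (Fin m) (Fin k) ℝ := fun i j => if (i : ℕ) = j then 1 else 0

lemma E_mem (h : k ≤ m) : (E m k)ᵀ * E m k = 1 := by
  ext i j
  rw [mul_apply, one_apply]
  simp only [transpose_apply, E]
  rw [Finset.sum_eq_single (Fin.castLE h i)]
  · simp only [Fin.val_castLE, if_true, one_mul]
    by_cases hij : i = j
    · simp [hij]
    · rw [if_neg, if_neg hij]
      intro h; exact hij (Fin.ext h)
  · intro b _ hb
    rw [if_neg, zero_mul]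
    intro h'; exact hb (Fin.ext h')
  · intro h'; exact absurd (Finset.mem_univ _) h'

lemma isCompact_St : IsCompact {V : Matrix (Fin m) (Fin k) ℝ | Vᵀ * V = 1} := by
  have hc : IsClosed {V : Matrix (Fin m) (Fin k) ℝ | Vᵀ * V = 1} := by
    apply isClosed_eq
    · exact continuous_id.matrix_transpose.matrix_mul continuous_id
    · exact continuous_const
  have hsub : {V : Matrix (Fin m) (Fin k) ℝ | Vᵀ * V = 1} ⊆
      Set.pi univ (fun _ : Fin m => Set.pi univ (fun _ : Fin k => Icc (-1 : ℝ) 1)) := by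
    intro V hV i _ j _
    have h1 : ∑ l, V l j * V l j = 1 := by
      have := congrFun (congrFun hV j) j
      rw [mul_apply, one_apply_eq] at this
      simpa only [transpose_apply] using this
    have h2 : V i j * V i j ≤ 1 := by
      rw [← h1]
      exact Finset.single_le_sum (f := fun l => V l j * V l j) (fun l _ => mul_self_nonneg _)
        (Finset.mem_univ i)
    constructor <;> nlinarith
  exact IsCompact.of_isClosed_subset
    (isCompact_univ_pi fun _ => isCompact_univ_pi fun _ => isCompact_Icc) hc hsub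

instance : CompactSpace (St m k) := isCompact_iff_compactSpace.mp isCompact_St

lemma conj_mul (A : Mt m) (V : Matrix (Fin m) (Fin k) ℝ) (Q : Mt k) :
    (V * Q)ᵀ * A * (V * Q) = Qᵀ * (Vᵀ * A * V) * Q := by
  rw [transpose_mul]; simp only [Matrix.mul_assoc]

/-- ratio of the squares of volumes -/
def rt (P G : Mt m) (V : Matrix (Fin m) (Fin k) ℝ) : ℝ := (Vᵀ * G * V).det / (Vᵀ * P * V).det

lemma rt_mul (P G : Mt m) (V : Matrix (Fin m) (Fin k) ℝ) {Q : Mt k} (hQ : IsUnit Q) :
    rt P G (V * Q) = rt P G V := by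
  have h : ∀ A : Mt m, ((V * Q)ᵀ * A * (V * Q)).det = Q.det * Q.det * (Vᵀ * A * V).det := by
    intro A
    have : (V * Q)ᵀ * A * (V * Q) = Qᵀ * (Vᵀ * A * V) * Q := by
      rw [transpose_mul]; simp only [Matrix.mul_assoc]
    rw [this, det_mul, det_mul, det_transpose]; ring
  have hd : Q.det ≠ 0 := ((Matrix.isUnit_iff_isUnit_det _).mp hQ).ne_zero
  unfold rt
  rw [h, h]
  rw [mul_div_mul_left _ _ (mul_ne_zero hd hd)]

variable {P G : Mt m}

lemma det_pos_of_inj (hP : P.PosDef) {V : Matrix (Fin m) (Fin k) ℝ}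
    (hV : Function.Injective V.mulVec) : 0 < (Vᵀ * P * V).det := (posDef_conj hP hV).det_pos

/-- the set of values is the image of the Stiefel manifold under the ratio -/
lemma kv_set (hP : P.PosDef) :
    {x | ∃ W : Matrix (Fin m) (Fin k) ℝ, Wᵀ * P * W = 1 ∧ x = (Wᵀ * G * W).det} =
      (fun V : St m k => rt P G V.1) '' univ := by
  ext x
  constructor
  · rintro ⟨W, hW, rfl⟩
    have hinj := inj_of_one hW
    have h1 : (Wᵀ * W).PosDef := by
      have := posDef_conj (A := (1 : Mt m)) PosDef.one hinj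
      rwa [Matrix.mul_one] at this
    obtain ⟨Q, hQ, hQ1⟩ := exists_Q h1
    refine ⟨⟨W * Q, ?_⟩, mem_univ _, ?_⟩
    · have := conj_mul (1 : Mt m) W Q
      rw [Matrix.mul_one, Matrix.mul_one, hQ1] at this
      exact this
    · change rt P G (W * Q) = _
      rw [rt_mul P G W hQ, rt, hW, det_one, div_one]
  · rintro ⟨V, -, rfl⟩
    have hinj := inj_of_one' V.2
    obtain ⟨Q, hQ, hQ1⟩ := exists_Q (posDef_conj hP hinj)
    have h1 : (V.1 * Q)ᵀ * P * (V.1 * Q) = 1 := (conj_mul P V.1 Q).trans hQ1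
    refine ⟨V.1 * Q, h1, ?_⟩
    change rt P G V.1 = _
    rw [← rt_mul P G V.1 hQ, rt, h1, det_one, div_one]

lemma kv_eq (hP : P.PosDef) : kv k P G = sSup ((fun V : St m k => rt P G V.1) '' univ) := by
  rw [kv, kv_set hP]

lemma continuous_rt {X : Type*} [TopologicalSpace X] {P G : X → Mt m} (hP : Continuous P)
    (hG : Continuous G) (hpos : ∀ f, (P f).PosDef) :
    Continuous fun q : X × St m k => rt (P q.1) (G q.1) q.2.1 := by
  have hV : Continuous fun q : X × St m k => (q.2.1 : Matrix (Fin m) (Fin k) ℝ) :=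
    continuous_subtype_val.comp continuous_snd
  have h1 : ∀ {A : X → Mt m}, Continuous A →
      Continuous fun q : X × St m k => ((q.2.1)ᵀ * A q.1 * q.2.1).det := by
    intro A hA
    exact ((hV.matrix_transpose.matrix_mul (hA.comp continuous_fst)).matrix_mul hV).matrix_det
  exact (h1 hG).div (h1 hP) fun q => (det_pos_of_inj (hpos q.1) (inj_of_one' q.2.2)).ne'

lemma continuous_rt' (hP : P.PosDef) : Continuous fun V : St m k => rt P G V.1 := by
  have hV : Continuous fun V : St m k => (V.1 : Matrix (Fin m) (Fin k) ℝ) :=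
    continuous_subtype_val
  have h1 : ∀ A : Mt m, Continuous fun V : St m k => ((V.1)ᵀ * A * V.1).det := fun A =>
    ((hV.matrix_transpose.matrix_mul continuous_const).matrix_mul hV).matrix_det
  exact (h1 G).div (h1 P) fun V => (det_pos_of_inj hP (inj_of_one' V.2)).ne'

/-- the supremum depends continuously on the two metrics -/
lemma continuous_kv {X : Type*} [TopologicalSpace X] {P G : X → Mt m} (hP : Continuous P)
    (hG : Continuous G) (hpos : ∀ f, (P f).PosDef) : Continuous fun f => kv k (P f) (G f) := by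
  have h := IsCompact.continuous_sSup (f := fun (f : X) (V : St m k) => rt (P f) (G f) V.1)
    (K := univ) isCompact_univ (continuous_rt hP hG hpos)
  refine h.congr fun f => ?_
  exact (kv_eq (hpos f)).symm

/-- the supremum is attained and is an upper bound -/
lemma kv_max (hP : P.PosDef) (hk : k ≤ m) :
    ∃ W : Matrix (Fin m) (Fin k) ℝ, Wᵀ * P * W = 1 ∧ kv k P G = (Wᵀ * G * W).det ∧
      ∀ W' : Matrix (Fin m) (Fin k) ℝ, W'ᵀ * P * W' = 1 → (W'ᵀ * G * W').det ≤ kv k P G := by
  have hc : Continuous fun V : St m k => rt P G V.1 := continuous_rt' hP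
  have hne : (univ : Set (St m k)).Nonempty := ⟨⟨E m k, E_mem hk⟩, mem_univ _⟩
  obtain ⟨V, -, hV⟩ := isCompact_univ.exists_isMaxOn hne hc.continuousOn
  have hb : BddAbove ((fun V : St m k => rt P G V.1) '' univ) :=
    isCompact_univ.bddAbove_image hc.continuousOn
  have hmem : kv k P G ∈ (fun V : St m k => rt P G V.1) '' univ := by
    rw [kv_eq hP]
    exact (isCompact_univ.image hc).sSup_mem (hne.image _)
  have hset := kv_set (k := k) (G := G) hP
  have h2 := hset ▸ hmem
  obtain ⟨W, hW, hx⟩ := h2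
  refine ⟨W, hW, hx, ?_⟩
  intro W' hW'
  rw [kv]
  exact le_csSup (by rw [hset]; exact hb) ⟨W', hW', rfl⟩

/-- homogeneous form of the bound -/
lemma det_le_kv (hP : P.PosDef) (hk : k ≤ m) (V : Matrix (Fin m) (Fin k) ℝ) :
    (Vᵀ * G * V).det ≤ kv k P G * (Vᵀ * P * V).det := by
  by_cases h : (Vᵀ * P * V).det = 0
  · rw [h, mul_zero]
    by_contra hc
    have h1 : (Vᵀ * G * V).det ≠ 0 := fun h' => hc h'.le
    exact (det_pos_of_inj hP (inj_of_det h1)).ne' h
  · have hinj := inj_of_det h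
    have hpos := det_pos_of_inj hP hinj
    obtain ⟨Q, hQ, hQ1⟩ := exists_Q (posDef_conj hP hinj)
    have h1 : (V * Q)ᵀ * P * (V * Q) = 1 := (conj_mul P V Q).trans hQ1
    obtain ⟨W, hW, hx, hall⟩ := kv_max (G := G) hP hk
    have h2 := hall (V * Q) h1
    have h3 : rt P G V = ((V * Q)ᵀ * G * (V * Q)).det := by
      rw [← rt_mul P G V hQ, rt, h1, det_one, div_one]
    rw [← h3, rt, div_le_iff₀ hpos] at h2
    exact h2

lemma kv_pos (hP : P.PosDef) (hG : G.PosDef) (hk : k ≤ m) : 0 < kv k P G := by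
  obtain ⟨W, hW, hx, -⟩ := kv_max (G := G) hP hk
  rw [hx]
  exact det_pos_of_inj hG (inj_of_one hW)

/-- submultiplicativity -/
lemma kv_mul {Y : Mt m} {R : Mt m} (hP : P.PosDef) (hG : G.PosDef) (hR : R.PosDef) (hk : k ≤ m) :
    kv k P (Yᵀ * R * Y) ≤ kv k G R * kv k P (Yᵀ * G * Y) := by
  obtain ⟨W, hW, hx, -⟩ := kv_max (k := k) (G := Yᵀ * R * Y) hP hk
  obtain ⟨W', hW', hx', hall⟩ := kv_max (k := k) (G := Yᵀ * G * Y) hP hk
  have e : ∀ A : Mt m, Wᵀ * (Yᵀ * A * Y) * W = (Y * W)ᵀ * A * (Y * W) := by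
    intro A; rw [transpose_mul]; simp only [Matrix.mul_assoc]
  rw [hx, e R]
  refine (det_le_kv hG hk (Y * W)).trans ?_
  refine mul_le_mul_of_nonneg_left ?_ (kv_pos hG hR hk).le
  rw [← e G]
  exact hall W hW

/-- the value for `k = m` -/
lemma kv_full (hP : P.PosDef) : kv m P G * P.det = G.det := by
  obtain ⟨W, hW, hx, -⟩ := kv_max (k := m) (G := G) hP le_rfl
  have h1 : W.det * P.det * W.det = 1 := by
    have := congrArg det hW
    rwa [det_mul, det_mul, det_transpose, det_one] at this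
  rw [hx, det_mul, det_mul, det_transpose]
  linear_combination G.det * h1

end Vale.Agent.P207.SPH.H522
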