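import Vale.Agent.P207.SPH.H234.Eig

/-!
# P207, SPH, second wave: Abel summation and the trace of the square (helper522)
-/

open Matrix

namespace Vale.Agent.P207.SPH.H522

theorem psum_step {m : ℕ} (e : Fin m → ℝ) (k : ℕ) (hk : k < m) :
    psum (k + 1) e = psum k e + e ⟨k, hk⟩ := by
  unfold psum
  rw [← sub_eq_iff_eq_add', ← Finset.sum_sub_distrib, Finset.sum_eq_single ⟨k, hk⟩]
  · simp
  · intro j _ hj
    have h1 : (j : ℕ) ≠ k := fun h => hj (Fin.ext h)
    by_cases h : (j : ℕ) < k
    · rw [if_pos (by omega), if_pos h, sub_self]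
    · rw [if_neg (by omega), if_neg h, sub_self]
  · intro h
    exact absurd (Finset.mem_univ _) h

theorem psum_zero {m : ℕ} (e : Fin m → ℝ) : psum 0 e = 0 := by
  unfold psum
  exact Finset.sum_eq_zero fun i _ => if_neg (Nat.not_lt_zero _)

theorem psum_all {m : ℕ} (e : Fin m → ℝ) : psum m e = ∑ i, e i := by
  unfold psum
  exact Finset.sum_congr rfl fun i _ => if_pos i.2

theorem abel_aux {m : ℕ} (x d : Fin m → ℝ) (hx : Antitone x) (hd : ∀ k ≤ m, 0 ≤ psum k d) :
    ∀ k ≤ m, ∀ c : ℝ, (∀ i : Fin m, (i : ℕ) < k → c ≤ x i) →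
      c * psum k d ≤ psum k fun i => x i * d i := by
  intro k
  induction k with
  | zero =>
    intro _ c _
    rw [psum_zero, psum_zero, mul_zero]
  | succ k ih =>
    intro hk c hc
    have h1 := ih (by omega) (x ⟨k, hk⟩) fun i hi => hx (by
      rw [Fin.le_def]
      exact hi.le)
    have h2 := hd (k + 1) hk
    have h3 := mul_le_mul_of_nonneg_right (hc ⟨k, hk⟩ (Nat.lt_succ_self k)) h2
    rw [psum_step _ k hk] at h3 ⊢
    rw [psum_step _ k hk]
    refine h3.trans ?_
    rw [mul_add]
    linarith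

/-- Abel summation: if `x` is antitone and the partial sums of `d` are nonnegative and the whole
sum is zero, then `∑ x d` is nonnegative. -/
theorem abel2 {m : ℕ} (x d : Fin m → ℝ) (hx : Antitone x) (hd : ∀ k ≤ m, 0 ≤ psum k d)
    (h0 : ∑ i, d i = 0) : 0 ≤ ∑ i, x i * d i := by
  have h := abel_aux x d hx hd m le_rfl (-∑ j, |x j|) fun i _ => by
    have h1 : |x i| ≤ ∑ j, |x j| :=
      Finset.single_le_sum (f := fun j => |x j|) (fun j _ => abs_nonneg (x j)) (Finset.mem_univ i)
    have h2 := neg_abs_le (x i)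
    linarith
  rw [psum_all, psum_all, h0, mul_zero] at h
  exact h

/-- the trace of the square of a symmetric matrix -/
theorem ev_sq {m : ℕ} (S : Mt m) (hS : Sᵀ = S) (e : Fin m → ℝ)
    (he : ∀ k ≤ m, sg k S = psum k e) : (S * S).trace = ∑ i, e i ^ 2 := by
  obtain ⟨O, e', hO, -, hSe, h⟩ := H234.eigD m S hS
  have hee : e = e' := by
    funext i
    have h1 := psum_step e i i.2
    have h2 := psum_step e' i i.2
    rw [← he _ i.2, ← he _ i.2.le] at h1
    rw [← h _ i.2, ← h _ i.2.le, h1] at h2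
    exact add_left_cancel h2
  subst hee
  rw [hSe]
  calc ((O * diagonal e * Oᵀ) * (O * diagonal e * Oᵀ)).trace
      = ((O * diagonal e) * (Oᵀ * O) * (diagonal e * Oᵀ)).trace := by
        simp only [Matrix.mul_assoc]
    _ = (O * ((diagonal e * diagonal e) * Oᵀ)).trace := by
        rw [hO, Matrix.mul_one]
        simp only [Matrix.mul_assoc]
    _ = ((diagonal e * diagonal e) * (Oᵀ * O)).trace := by
        rw [Matrix.trace_mul_comm, Matrix.mul_assoc]
    _ = ∑ i, e i ^ 2 := by
        rw [hO, Matrix.mul_one, diagonal_mul_diagonal, trace_diagonal]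
        exact Finset.sum_congr rfl fun i _ => by rw [sq]

end Vale.Agent.P207.SPH.H522
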